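import Vale.Agent.Lib.P309.Main

/-!
# P309, Q1: `M = O(d^2)` bits force `T = Ω(d log(1/ε))` noiseless Gaussian samples
-/

open MeasureTheory

namespace Vale.Agent.Results.P309.MemorySampleQ1

open Vale.Agent.Lib.P309

/-- For every constant `c₀`, a learner with at most `2^M` states, `M ≤ c₀ d²`, horizon `T`,
succeeding at accuracy `ε` with probability at least `2/3`, has `T ≥ c' d log(1/ε)`
for all small `ε` and all large `d`. -/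
theorem result (c₀ : ℝ) (hc₀ : 0 < c₀) :
    ∃ c' : ℝ, 0 < c' ∧ ∃ ε₀ : ℝ, 0 < ε₀ ∧ ∃ d₀ : ℕ,
      ∀ (d M T K : ℕ) (ε : ℝ), d₀ ≤ d → 0 < ε → ε < ε₀ →
        (M : ℝ) ≤ c₀ * (d : ℝ) ^ 2 → K ≤ 2 ^ M →
        ∀ (Ω : Type) [MeasurableSpace Ω] (ν : Measure Ω) [IsProbabilityMeasure ν]
          (L : Learner d T K Ω),
          L.Succeeds ν ε → c' * (d : ℝ) * Real.log (1 / ε) ≤ (T : ℝ) := by
  -- constants
  obtain ⟨C, hC⟩ : ∃ C : ℝ, C = 10 ^ 8 * (c₀ + 1) := ⟨_, rfl⟩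
  have hC0 : 0 < C := by rw [hC]; positivity
  obtain ⟨n, hn⟩ := pow_unbounded_of_one_lt c₀ (by norm_num : (1:ℝ) < 2)
  refine ⟨1 / (2 * C), by positivity, Real.exp (-(100 + 2 * C)), Real.exp_pos _,
    2 ^ 20 + 8 * n + 8, ?_⟩
  intro d M T K ε hd hε hεε hM hK Ω _ ν _ L hL
  have hd20 : 2 ^ 20 ≤ d := by omega
  have hD0 : (0:ℝ) < (d:ℝ) := by
    have : 0 < d := by omega
    exact_mod_cast this
  -- the memory is below the exponential threshold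
  have hMpow : (M : ℝ) ≤ 2 ^ (d / 2) := by
    have hq : (d:ℝ) ≤ (2:ℝ) ^ (d / 8) := by exact_mod_cast (d_lt_pow hd20).le
    calc (M:ℝ) ≤ c₀ * (d:ℝ) ^ 2 := hM
      _ ≤ (2:ℝ) ^ n * ((2:ℝ) ^ (d / 8)) ^ 2 := by
          gcongr
      _ = (2:ℝ) ^ (n + d / 8 * 2) := by
          rw [pow_add, ← pow_mul]
      _ ≤ (2:ℝ) ^ (d / 2) := pow_le_pow_right₀ (by norm_num) (by omega)
  have hε1 : ε ≤ Real.exp (-100) := by
    refine hεε.le.trans (Real.exp_le_exp.2 ?_)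
    linarith
  have hΛ : 100 + 2 * C ≤ Real.log (1 / ε) := by
    rw [one_div, Real.log_inv]
    have h1 : Real.log ε ≤ Real.log (Real.exp (-(100 + 2 * C))) := Real.log_le_log hε hεε.le
    rw [Real.log_exp] at h1
    linarith
  have hmain := main_tradeoff hd20 hK hMpow L ν hε hε1 hL
  obtain ⟨Λ, hΛdef⟩ : ∃ Λ, Λ = Real.log (1 / ε) := ⟨_, rfl⟩
  rw [← hΛdef] at hmain hΛ ⊢
  have hdd : (0:ℝ) < (d:ℝ) ^ 2 := by positivity
  have hT0 : (0:ℝ) ≤ (T:ℝ) := by positivity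
  -- divide by `d²`
  have h1 : (d:ℝ) * Λ ≤ C * ((T:ℝ) + d) := by
    have h2 : 10 ^ 8 * ((T:ℝ) + d) * ((M:ℝ) + (d:ℝ) ^ 2)
        ≤ 10 ^ 8 * ((T:ℝ) + d) * ((c₀ + 1) * (d:ℝ) ^ 2) := by
      gcongr
      linarith
    have h3 : ((d:ℝ) * Λ) * (d:ℝ) ^ 2 ≤ (C * ((T:ℝ) + d)) * (d:ℝ) ^ 2 := by
      calc ((d:ℝ) * Λ) * (d:ℝ) ^ 2 = (d:ℝ) ^ 3 * Λ := by ring
        _ ≤ _ := hmain
        _ ≤ _ := h2
        _ = _ := by rw [hC]; ring
    exact le_of_mul_le_mul_right h3 hdd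
  -- conclude
  have h2 : 1 / (2 * C) * (d:ℝ) * Λ ≤ (T:ℝ) := by
    have h3 : (d:ℝ) * Λ ≤ 2 * C * (T:ℝ) := by
      have h4 : 2 * C * (d:ℝ) ≤ (d:ℝ) * Λ := by
        have : (d:ℝ) * (2 * C) ≤ (d:ℝ) * Λ := by
          gcongr
          linarith
        linarith
      nlinarith
    have h5 : 1 / (2 * C) * (d:ℝ) * Λ = ((d:ℝ) * Λ) / (2 * C) := by
      field_simp
    rw [h5, div_le_iff₀ (by positivity)]
    linarith
  exact h2

end Vale.Agent.Results.P309.MemorySampleQ1
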